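import Vale.Agent.P134.GDefs
import Vale.Agent.P255.Flow

/-! Global flows of bounded smooth vector fields. -/

open scoped RealInnerProductSpace ContDiff ENNReal Topology
open MeasureTheory Set Metric Filter

namespace Vale.Agent.P134.DG.G

namespace GFlowA

variable {B : Type} [NormedAddCommGroup B] [NormedSpace ℝ B] [FiniteDimensional ℝ B]
  {F : B → B} {M : ℝ}

theorem lip (hF : ContDiff ℝ ∞ F) (z : B) (ρ : ℝ) : ∃ K, LipschitzOnWith K F (closedBall z ρ) :=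
  haveI := FiniteDimensional.proper_real B
  hF.contDiffOn.exists_lipschitzOnWith (by simp) (convex_closedBall z ρ) (isCompact_closedBall z ρ)

theorem uniq (hF : ContDiff ℝ ∞ F) (hM : ∀ z, ‖F z‖ ≤ M) {a b t₀ : ℝ} (ht : t₀ ∈ Ioo a b)
    {α β : ℝ → B} (hα : ∀ t ∈ Ioo a b, HasDerivAt α (F (α t)) t)
    (hβ : ∀ t ∈ Ioo a b, HasDerivAt β (F (β t)) t) (h0 : α t₀ = β t₀) : EqOn α β (Ioo a b) := by
  obtain ⟨K, hK⟩ := lip hF (α t₀) (M * (b - a))
  have k : ∀ γ : ℝ → B, (∀ t ∈ Ioo a b, HasDerivAt γ (F (γ t)) t) → ∀ t ∈ Ioo a b,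
      γ t ∈ closedBall (γ t₀) (M * (b - a)) := fun γ hγ t h => by
    refine mem_closedBall_iff_norm.2 (((convex_Ioo a b).norm_image_sub_le_of_norm_hasDerivWithin_le
      (fun s hs => (hγ s hs).hasDerivWithinAt) (fun s _ => hM _) ht h).trans
      (mul_le_mul_of_nonneg_left ?_ ((norm_nonneg _).trans (hM (γ t)))))
    exact abs_le.2 ⟨by linarith [h.1, ht.2], by linarith [h.2, ht.1]⟩
  exact ODE_solution_unique_of_mem_Ioo (v := fun _ => F)
    (s := fun _ => closedBall (α t₀) (M * (b - a))) (fun _ _ => hK) ht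
    (fun t h => ⟨hα t h, k α hα t h⟩) (fun t h => ⟨hβ t h, h0 ▸ k β hβ t h⟩) h0

theorem sol_Ioo (hF : ContDiff ℝ ∞ F) (hM : ∀ z, ‖F z‖ ≤ M) (z : B) {R : ℝ} (hR : 0 < R) :
    ∃ α : ℝ → B, α 0 = z ∧ ∀ t ∈ Ioo (-R) R, HasDerivAt α (F (α t)) t := by
  have := FiniteDimensional.complete ℝ B
  lift M to NNReal using (norm_nonneg _).trans (hM z)
  lift R to NNReal using hR.le
  obtain ⟨K, hK⟩ := lip hF z (M * R : NNReal)
  have hP : IsPicardLindelof (fun _ => F) (tmin := -(R : ℝ)) (tmax := R)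
      ⟨0, by constructor <;> linarith⟩ z (M * R) 0 M K :=
    IsPicardLindelof.of_time_independent (fun x _ => hM x) hK (by simp)
  obtain ⟨α, h0, hα⟩ := hP.exists_eq_forall_mem_Icc_hasDerivWithinAt₀
  exact ⟨α, h0, fun t ht =>
    (hα t (Ioo_subset_Icc_self ht)).hasDerivAt (Icc_mem_nhds ht.1 ht.2)⟩

theorem mem_abs (s : ℝ) {R : ℝ} (h : |s| < R) : s ∈ Ioo (-R) R := abs_lt.1 h

theorem sol (hF : ContDiff ℝ ∞ F) (hM : ∀ z, ‖F z‖ ≤ M) (z : B) :
    ∃ α : ℝ → B, α 0 = z ∧ ∀ t, HasDerivAt α (F (α t)) t := by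
  choose! α h0 hα using fun R => sol_Ioo hF hM z (R := R)
  have hg : ∀ R S : ℝ, 0 < R → R ≤ S → EqOn (α R) (α S) (Ioo (-R) R) := fun R S hR hS =>
    uniq hF hM (t₀ := 0) ⟨by linarith, hR⟩ (hα R hR)
      (fun t ht => hα S (hR.trans_le hS) t (Ioo_subset_Ioo (by linarith) hS ht))
      ((h0 R hR).trans (h0 S (hR.trans_le hS)).symm)
  refine ⟨fun t => α (|t| + 1) t, h0 _ (by positivity), fun t => ?_⟩
  have e : (fun s => α (|s| + 1) s) =ᶠ[𝓝 t] α (|t| + 2) := by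
    filter_upwards [ball_mem_nhds t one_pos] with s hs
    have h1 : |s - t| < 1 := hs
    exact hg _ _ (by positivity) (by linarith [abs_sub_abs_le_abs_sub s t])
      (mem_abs s (lt_add_one _))
  have k := (hα (|t| + 2) (by positivity) t (mem_abs t (by linarith))).congr_of_eventuallyEq e
  rwa [← e.eq_of_nhds] at k

theorem step (hF : ContDiff ℝ ∞ F) (hM : ∀ z, ‖F z‖ ≤ M) {Φ : B × ℝ → B}
    (hΦ : ∀ z t, HasDerivAt (fun s => Φ (z, s)) (F (Φ (z, t))) t) (p : B) :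
    ∃ ε > 0, ∀ z t s, ContDiffAt ℝ 3 (fun x => Φ (x, t)) z → Φ (z, t) ∈ ball p ε →
      s - t ∈ Ioo (-ε) ε → ContDiffAt ℝ 3 Φ (z, s) := by
  obtain ⟨ε, hε, Ψ, h1, h2⟩ := P255.exists_smooth_flow F univ isOpen_univ hF.contDiffOn p trivial
  refine ⟨ε, hε, fun z t s hz hp hs => ?_⟩
  have ho := (isOpen_ball.prod isOpen_Ioo).mem_nhds (mk_mem_prod hp hs)
  have k : ContDiffAt ℝ 3 (fun q : B × ℝ => (Φ (q.1, t), q.2 - t)) (z, s) :=
    (hz.comp (z, s) contDiffAt_fst).prodMk (contDiffAt_snd.sub contDiffAt_const)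
  refine ((h1.contDiffAt ho).comp (z, s) k).congr_of_eventuallyEq ?_
  filter_upwards [k.continuousAt.eventually_mem ho] with q hq
  have u := uniq hF hM (t₀ := 0) ⟨by linarith, hε⟩ (α := fun r => Φ (q.1, r + t))
    (β := fun r => Ψ (Φ (q.1, t), r)) (fun r _ => (hΦ q.1 (r + t)).comp_add_const r t)
    (fun r hr => ((h2 _ hq.1).2 r hr).2) (by rw [zero_add, (h2 _ hq.1).1]) hq.2
  simp only [sub_add_cancel] at u
  exact u

end GFlowA

open GFlowA in
theorem flow_pf : S_GFlow := by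
  intro B _ _ _ F M hF hM
  choose α h0 hα using sol hF hM
  have hΦ : ∀ z t, HasDerivAt (fun s => Function.uncurry α (z, s)) (F (Function.uncurry α (z, t))) t := hα
  refine ⟨Function.uncurry α, contDiff_iff_contDiffAt.2 fun ⟨z, t⟩ => ?_, h0, hα, fun β hβ t =>
    uniq hF hM (t₀ := 0) (mem_abs 0 (R := |t| + 1) (by rw [abs_zero]; positivity))
      (fun s _ => hβ s) (fun s _ => hα (β 0) s) (h0 _).symm (mem_abs t (lt_add_one _))⟩
  have c : Continuous fun s : ℝ => (z, s) := by fun_prop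
  have k : IsClopen {s | ContDiffAt ℝ 3 (Function.uncurry α) (z, s)} := by
    refine ⟨isClosed_of_closure_subset fun s hs => ?_, isOpen_iff_mem_nhds.2 fun s hs =>
      c.continuousAt.eventually (ContDiffAt.eventually hs (by simp))⟩
    obtain ⟨ε, hε, h1⟩ := step hF hM hΦ (α z s)
    obtain ⟨r, ⟨a1, a2⟩, a3⟩ := mem_closure_iff_nhds.1 hs _ (inter_mem
      ((hα z s).continuousAt.eventually_mem (ball_mem_nhds _ hε)) (ball_mem_nhds s hε))
    exact h1 z r s (ContDiffAt.comp (g := Function.uncurry α) z a3 (contDiffAt_id.prodMk contDiffAt_const))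
      a1 (mem_abs _ (mem_ball'.1 a2))
  obtain ⟨ε, hε, h1⟩ := step hF hM hΦ z
  have e : (fun x => Function.uncurry α (x, 0)) = id := funext h0
  have u := k.eq_univ ⟨0, h1 z 0 0 (e ▸ contDiffAt_id) (by
    rw [show Function.uncurry α (z, 0) = z from h0 z]; exact mem_ball_self hε)
      (mem_abs _ (by simpa using hε))⟩
  exact (u ▸ mem_univ t : t ∈ {s | ContDiffAt ℝ 3 (Function.uncurry α) (z, s)})

end Vale.Agent.P134.DG.G
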