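import Vale.Agent.P134.TAll
import Vale.Agent.P134.HAll
import Vale.Agent.P134.GMain
import Vale.Agent.P134.GSum
import Vale.Agent.P134.GCross
import Vale.Agent.P134.GDesc
import Vale.Agent.P134.GFlow
import Vale.Agent.P134.GGauss
import Vale.Agent.P134.GGeo
import Vale.Agent.P134.GHR
import Vale.Agent.P134.GJac
import Vale.Agent.P134.GLoc
import Vale.Agent.P134.GMol
import Vale.Agent.P134.GNet
import Vale.Agent.P134.GNorm
import Vale.Agent.P134.GOde
import Vale.Agent.P134.GOne
import Vale.Agent.P134.GPre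
import Vale.Agent.P134.GRay
import Vale.Agent.P134.GTan
import Vale.Agent.P134.QAr1
import Vale.Agent.P134.QArea
import Vale.Agent.P134.QBas
import Vale.Agent.P134.QDd
import Vale.Agent.P134.QFin
import Vale.Agent.P134.QFub
import Vale.Agent.P134.QGt
import Vale.Agent.P134.QIn
import Vale.Agent.P134.QInj
import Vale.Agent.P134.QLog
import Vale.Agent.P134.QM1
import Vale.Agent.P134.QM1p
import Vale.Agent.P134.QM2
import Vale.Agent.P134.QM3
import Vale.Agent.P134.QM3p
import Vale.Agent.P134.QMain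
import Vale.Agent.P134.QMaj
import Vale.Agent.P134.QMj1
import Vale.Agent.P134.QMj2
import Vale.Agent.P134.QNear
import Vale.Agent.P134.QOut
import Vale.Agent.P134.QPig
import Vale.Agent.P134.QProf
import Vale.Agent.P134.QTh
import Vale.Agent.P134.QVol
import Vale.Agent.P134.QWp

/-! Part (A) assembled: stable solutions in dimension three are one-dimensional. -/

namespace Vale.Agent.P134.DG

theorem pog_all : S_Pog :=
  have hT := G.tan_pf
  have hC := G.cor_pf hT G.loc_pf
  G.pog_of alg_all meas_all (G.geo_pf G.flow_pf) G.net_pf (G.pre_pf G.loc_pf G.mol_pf)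
    (G.sum_pf G.loc_pf G.cut_pf (G.frm_pf G.cross_pf)
      (G.hr_pf hT (G.desc_pf hT G.loc_pf (G.norm_pf hT (G.gauss_pf hT))) hC) (G.uni_pf hT hC)
      (G.one_pf (G.ray_pf alg_all (G.tube_pf hT) (G.jac_pf alg_all G.cross_pf) G.ode_pf)))

theorem main_all : Q_main :=
  have hb := q_bas q_prof
  have h1 := q_mj1 alg_all hb
  have hw := q_wp q_prof hb
  have hi := q_inj inj_all hb h1
  have hm := q_maj hb q_fub h1 (q_mj2 h1)
  q_main pog_all (q_in pid_pf hb) (q_m1 hb q_fub h1 (q_m1p hb hw (q_near hb)))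
    (q_m2 af_all alg_all hb h1 hi) (q_m3 hb h1 hm hi (q_m3p alg_all q_prof hb hw h1))
    (q_out rs_all hb h1 hm (q_dd hb) (q_gt hb)) (q_gt hb)
    (q_area hb h1 (q_rs1 rs_all) (q_ar1 hb)) (q_log hb h1 q_th) h1

theorem s_a : S_A :=
  q_fin pw' rig' cut_pf surf_all (q_bas q_prof) main_all (q_vol q_fub) q_pig q_par

end Vale.Agent.P134.DG
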