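import Vale.Agent.P134.GMain
import Vale.Agent.P134.GSum
import Vale.Agent.P134.GJac
import Vale.Agent.P134.GFlow
import Vale.Agent.P134.GNorm
import Vale.Agent.P134.GMol
import Vale.Agent.P134.GHR
import Vale.Agent.P134.GGeo
import Vale.Agent.P134.GDesc
import Vale.Agent.P134.GOde
import Vale.Agent.P134.GLoc
import Vale.Agent.P134.GTan
import Vale.Agent.P134.GGauss
import Vale.Agent.P134.GCrossB
import Vale.Agent.P134.GOne
import Vale.Agent.P134.GRay
import Vale.Agent.P134.GNet
import Vale.Agent.P134.GPre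

/-! Block A3: the area inequality. -/

namespace Vale.Agent.P134.DG

open G in
theorem pog_pf (hA : S_Alg) (hM : F_Meas) : S_Pog :=
  pog_of hA hM (geo_pf flow_pf) net_pf (pre_pf loc_pf mol_pf)
    (sum_pf loc_pf cut_pf (frm_pf' cross_pf')
      (hr_pf tan_pf (desc_pf tan_pf loc_pf (norm_pf tan_pf (gauss_pf tan_pf))) (cor_pf tan_pf loc_pf))
      (uni_pf tan_pf (cor_pf tan_pf loc_pf))
      (one_pf (ray_pf hA (tube_pf tan_pf) (jac_pf hA cross_pf') ode_pf)))

end Vale.Agent.P134.DG
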