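import Vale.Agent.P134.Main
import Vale.Agent.P134.BCx
import Vale.Agent.P134.B1Top
import Vale.Agent.P134.HAll
import Vale.Agent.P134.TAll
import Vale.Agent.P134.GAll
import Vale.Agent.P134.QAr1
import Vale.Agent.P134.QArea
import Vale.Agent.P134.QBas
import Vale.Agent.P134.QDd
import Vale.Agent.P134.QFin
import Vale.Agent.P134.QFub
import Vale.Agent.P134.QGt
import Vale.Agent.P134.QIn
import Vale.Agent.P134.QInj
import Vale.Agent.P134.QLog
import Vale.Agent.P134.QM1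
import Vale.Agent.P134.QM1p
import Vale.Agent.P134.QM2
import Vale.Agent.P134.QM3
import Vale.Agent.P134.QM3p
import Vale.Agent.P134.QMain
import Vale.Agent.P134.QMaj
import Vale.Agent.P134.QMj1
import Vale.Agent.P134.QMj2
import Vale.Agent.P134.QNear
import Vale.Agent.P134.QOut
import Vale.Agent.P134.QPig
import Vale.Agent.P134.QProf
import Vale.Agent.P134.QTh
import Vale.Agent.P134.QVol
import Vale.Agent.P134.QWp

/-! P134: the final assembly. -/

open scoped RealInnerProductSpace ContDiff Laplacian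

namespace Vale.Agent.P134

theorem fin_a : DG.S_A := by
  have hb := DG.q_bas DG.q_prof
  have h1 := DG.q_mj1 DG.alg_all hb
  have hw := DG.q_wp DG.q_prof hb
  have hm := DG.q_maj hb DG.q_fub h1 (DG.q_mj2 h1)
  have hi := DG.q_inj DG.inj_all hb h1
  have hg := DG.q_gt hb
  exact DG.q_fin DG.pw' DG.rig' DG.cut_pf DG.surf_all hb
    (DG.q_main (DG.pog_pf DG.alg_all DG.meas_all) (DG.q_in DG.pid_pf hb)
      (DG.q_m1 hb DG.q_fub h1 (DG.q_m1p hb hw (DG.q_near hb)))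
      (DG.q_m2 DG.af_all DG.alg_all hb h1 hi)
      (DG.q_m3 hb h1 hm hi (DG.q_m3p DG.alg_all DG.q_prof hb hw h1))
      (DG.q_out DG.rs_all hb h1 hm (DG.q_dd hb) hg) hg
      (DG.q_area hb h1 (DG.q_rs1 DG.rs_all) (DG.q_ar1 hb)) (DG.q_log hb h1 DG.q_th) h1)
    (DG.q_vol DG.q_fub) DG.q_pig DG.q_par

theorem fin_b : S_B := s_b_of fun _ _ h hf => h.b1 hf

theorem fin_main (u : E 4 → ℝ) (hu : ContDiff ℝ 2 u) (he : ∀ x, Δ u x = u x ^ 3 - u x)
    (hb : ∀ x, |u x| ≤ 1) (hm : ∀ x, 0 < fderiv ℝ u x (EuclideanSpace.single 3 1)) :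
    ∃ (e : E 4) (c : ℝ), ‖e‖ = 1 ∧ ∀ x, u x = Real.tanh ((⟪e, x⟫ - c) / √2) :=
  main_of fin_a fin_b r_reg' r_lt' r_mod' a2_bas r_pm' u hu he hb hm

end Vale.Agent.P134
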